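import Vale.Agent.P110.Main
import Vale.Agent.P110.Round

namespace Vale.Agent.Results.P110.Ultraflat

theorem result : ∀ c : ℝ, 0 < c → ∃ N₀ : ℕ, ∀ N ≥ N₀,
    ∃ ε : Fin N → ℝ, (∀ k, ε k = 1 ∨ ε k = -1) ∧ ∀ z : ℂ, ‖z‖ = 1 →
      (1 - c) * √(N : ℝ) ≤ ‖∑ k : Fin N, (ε k : ℂ) * z ^ (k : ℕ)‖ ∧
        ‖∑ k : Fin N, (ε k : ℂ) * z ^ (k : ℕ)‖ ≤ (1 + c) * √(N : ℝ) :=
  Vale.Agent.P110.main_of_rounding Vale.Agent.P110.rounding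

end Vale.Agent.Results.P110.Ultraflat
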